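import Mathlib

open MeasureTheory Real Set
open scoped ENNReal Pointwise

namespace Vale.Agent.P150.F.PL

theorem bm_compact {K K' C : Set ℝ} (hK : IsCompact K) (hK' : IsCompact K')
    (hKn : K.Nonempty) (hKn' : K'.Nonempty) (h : ∀ a ∈ K, ∀ b ∈ K', a + b ∈ C) :
    volume K + volume K' ≤ volume C := by
  set a := sSup K with hadef
  have ha : a ∈ K := hK.sSup_mem hKn
  set b := sInf K' with hbdef
  have hb : b ∈ K' := hK'.sInf_mem hKn'
  have h1 : volume ((fun x => x + b) '' K) = volume K := by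
    rw [Set.image_add_right, measure_preimage_add_right]
  have h2 : volume ((fun x => a + x) '' K') = volume K' := by
    rw [Set.image_add_left, measure_preimage_add]
  have hc2 : IsCompact ((fun x => a + x) '' K') := hK'.image (by fun_prop)
  have hd : AEDisjoint volume ((fun x => x + b) '' K) ((fun x => a + x) '' K') := by
    have hsub : ((fun x => x + b) '' K) ∩ ((fun x => a + x) '' K') ⊆ {a + b} := by
      rintro z ⟨⟨x, hx, rfl⟩, ⟨y, hy, hxy⟩⟩
      have hxa : x ≤ a := le_csSup hK.bddAbove hx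
      have hby : b ≤ y := csInf_le hK'.bddBelow hy
      have hxy' : a + y = x + b := hxy
      have : x = a := by linarith
      simp [this]
    exact measure_mono_null hsub (measure_singleton _)
  calc volume K + volume K' = volume ((fun x => x + b) '' K) + volume ((fun x => a + x) '' K') := by
        rw [h1, h2]
    _ = volume (((fun x => x + b) '' K) ∪ ((fun x => a + x) '' K')) := by
        rw [measure_union₀ hc2.measurableSet.nullMeasurableSet hd]
    _ ≤ volume C := by
        apply measure_mono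
        rintro z (⟨x, hx, rfl⟩ | ⟨x, hx, rfl⟩)
        · exact h x hx b hb
        · exact h a ha x hx

theorem bm1 {A B C : Set ℝ} (hA : MeasurableSet A) (hB : MeasurableSet B)
    (hAn : A.Nonempty) (hBn : B.Nonempty) (h : ∀ a ∈ A, ∀ b ∈ B, a + b ∈ C) :
    volume A + volume B ≤ volume C := by
  obtain ⟨a, ha⟩ := hAn
  obtain ⟨b, hb⟩ := hBn
  rw [hA.measure_eq_iSup_isCompact, hB.measure_eq_iSup_isCompact]
  simp only [iSup_and']
  refine ENNReal.biSup_add_biSup_le' (p := fun K => K ⊆ A ∧ IsCompact K)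
    (q := fun K => K ⊆ B ∧ IsCompact K) ⟨∅, by simp⟩ ⟨∅, by simp⟩ ?_
  rintro K ⟨hKA, hK⟩ K' ⟨hKB, hK'⟩
  calc volume K + volume K' ≤ volume (insert a K) + volume (insert b K') := by
        gcongr <;> exact Set.subset_insert _ _
    _ ≤ volume C := by
        apply bm_compact (hK.insert a) (hK'.insert b) (Set.insert_nonempty _ _)
          (Set.insert_nonempty _ _)
        intro x hx y hy
        exact h x (Set.insert_subset ha hKA hx) y (Set.insert_subset hb hKB hy)

theorem amgm_ennreal {s : ℝ} (hs0 : 0 < s) (hs1 : s < 1) (x y : ℝ≥0∞) :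
    x ^ (1 - s) * y ^ s ≤ ENNReal.ofReal (1 - s) * x + ENNReal.ofReal s * y := by
  have h1s : 0 < 1 - s := by linarith
  by_cases hx : x = ∞
  · subst hx
    rw [ENNReal.mul_top (by simpa using h1s)]
    simp
  by_cases hy : y = ∞
  · subst hy
    rw [ENNReal.mul_top (by simpa using hs0)]
    simp
  lift x to NNReal using hx
  lift y to NNReal using hy
  have := Real.geom_mean_le_arith_mean2_weighted h1s.le hs0.le x.coe_nonneg y.coe_nonneg (by ring)
  have h2 := ENNReal.ofReal_le_ofReal this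
  rw [ENNReal.ofReal_add (by positivity) (by positivity), ENNReal.ofReal_mul (by positivity),
    ENNReal.ofReal_mul h1s.le, ENNReal.ofReal_mul hs0.le, ← ENNReal.ofReal_rpow_of_nonneg x.coe_nonneg h1s.le,
    ← ENNReal.ofReal_rpow_of_nonneg y.coe_nonneg hs0.le] at h2
  simpa using h2

theorem pl1_normalized {s : ℝ} (hs0 : 0 < s) (hs1 : s < 1) {f g : ℝ → ℝ} {w : ℝ → ℝ≥0∞}
    (hf : Measurable f) (hg : Measurable g) (hw : Measurable w)
    (hf0 : ∀ x, 0 ≤ f x) (hg0 : ∀ x, 0 ≤ g x) (hf1 : ∀ x, f x ≤ 1) (hg1 : ∀ x, g x ≤ 1)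
    (hfs : ∀ t < 1, ∃ x, t < f x) (hgs : ∀ t < 1, ∃ x, t < g x)
    (h : ∀ x y, ENNReal.ofReal (f x ^ (1 - s) * g y ^ s) ≤ w ((1 - s) * x + s * y)) :
    ENNReal.ofReal (1 - s) * (∫⁻ x, ENNReal.ofReal (f x))
      + ENNReal.ofReal s * (∫⁻ x, ENNReal.ofReal (g x)) ≤ ∫⁻ x, w x := by
  have h1s : 0 < 1 - s := by linarith
  set k : ℝ → ℝ := fun x => (min (w x) 1).toReal with hk
  have hkm : Measurable k := (hw.min measurable_const).ennreal_toReal
  have hk0 : ∀ x, 0 ≤ k x := fun x => ENNReal.toReal_nonneg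
  have hkw : ∫⁻ x, ENNReal.ofReal (k x) ≤ ∫⁻ x, w x := by
    apply lintegral_mono
    intro x
    have : min (w x) 1 ≠ ∞ := (lt_of_le_of_lt (min_le_right _ _) ENNReal.one_lt_top).ne
    simp only [hk]
    rw [ENNReal.ofReal_toReal this]
    exact min_le_left _ _
  refine le_trans ?_ hkw
  rw [lintegral_eq_lintegral_meas_lt volume (Filter.Eventually.of_forall hf0) hf.aemeasurable,
    lintegral_eq_lintegral_meas_lt volume (Filter.Eventually.of_forall hg0) hg.aemeasurable,
    lintegral_eq_lintegral_meas_lt volume (Filter.Eventually.of_forall hk0) hkm.aemeasurable]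
  have mf : Measurable fun t => volume {a | t < f a} := by
    apply Antitone.measurable
    intro t t' htt'
    exact measure_mono fun a ha => lt_of_le_of_lt htt' ha
  have mg : Measurable fun t => volume {a | t < g a} := by
    apply Antitone.measurable
    intro t t' htt'
    exact measure_mono fun a ha => lt_of_le_of_lt htt' ha
  rw [← lintegral_const_mul _ mf, ← lintegral_const_mul _ mg, ← lintegral_add_left (by fun_prop)]
  apply setLIntegral_mono' measurableSet_Ioi
  intro t ht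
  have ht0 : 0 < t := ht
  by_cases ht1 : t < 1
  swap
  · have e1 : {a | t < f a} = ∅ := by
      ext a; simp; linarith [hf1 a]
    have e2 : {a | t < g a} = ∅ := by
      ext a; simp; linarith [hg1 a]
    simp [e1, e2]
  have hA : MeasurableSet ((1 - s) • {a | t < f a}) :=
    (measurableSet_lt measurable_const hf).const_smul₀ _
  have hB : MeasurableSet (s • {a | t < g a}) :=
    (measurableSet_lt measurable_const hg).const_smul₀ _
  have vA : volume ((1 - s) • {a | t < f a}) = ENNReal.ofReal (1 - s) * volume {a | t < f a} := by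
    rw [Measure.addHaar_smul]; simp [abs_of_pos h1s]
  have vB : volume (s • {a | t < g a}) = ENNReal.ofReal s * volume {a | t < g a} := by
    rw [Measure.addHaar_smul]; simp [abs_of_pos hs0]
  rw [← vA, ← vB]
  apply bm1 hA hB
  · obtain ⟨x, hx⟩ := hfs t ht1
    exact ⟨(1 - s) • x, Set.smul_mem_smul_set hx⟩
  · obtain ⟨x, hx⟩ := hgs t ht1
    exact ⟨s • x, Set.smul_mem_smul_set hx⟩
  · rintro _ ⟨x, hx, rfl⟩ _ ⟨y, hy, rfl⟩
    have hx' : t < f x := hx
    have hy' : t < g y := hy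
    have h3 : t < f x ^ (1 - s) * g y ^ s := by
      calc t = t ^ (1 - s) * t ^ s := by
            rw [← rpow_add ht0]; simp
        _ < f x ^ (1 - s) * g y ^ s := by
            apply mul_lt_mul'' (rpow_lt_rpow ht0.le hx' h1s) (rpow_lt_rpow ht0.le hy' hs0)
              (by positivity) (by positivity)
    have h4 : ENNReal.ofReal t < w ((1 - s) * x + s * y) :=
      lt_of_lt_of_le ((ENNReal.ofReal_lt_ofReal_iff_of_nonneg ht0.le).mpr h3) (h x y)
    have h5 : ENNReal.ofReal t < 1 := by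
      rw [← ENNReal.ofReal_one]; exact (ENNReal.ofReal_lt_ofReal_iff_of_nonneg ht0.le).mpr ht1
    have h6 : ENNReal.ofReal t < min (w ((1 - s) * x + s * y)) 1 := lt_min h4 h5
    have : min (w ((1 - s) * x + s * y)) 1 ≠ ∞ :=
      (lt_of_le_of_lt (min_le_right _ _) ENNReal.one_lt_top).ne
    show t < k ((1 - s) • x + s • y)
    simp only [hk, smul_eq_mul]
    exact (ENNReal.ofReal_lt_iff_lt_toReal ht0.le this).mp h6

theorem pl1_bdd {s : ℝ} (hs0 : 0 < s) (hs1 : s < 1) {u v w : ℝ → ℝ≥0∞}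
    (hu : Measurable u) (hv : Measurable v) (hw : Measurable w)
    (hub : ⨆ x, u x ≠ ∞) (hvb : ⨆ x, v x ≠ ∞)
    (h : ∀ x y, u x ^ (1 - s) * v y ^ s ≤ w ((1 - s) * x + s * y)) :
    (∫⁻ x, u x) ^ (1 - s) * (∫⁻ x, v x) ^ s ≤ ∫⁻ x, w x := by
  have h1s : 0 < 1 - s := by linarith
  set Mu := ⨆ x, u x with hMu
  set Mv := ⨆ x, v x with hMv
  by_cases hu0 : Mu = 0
  · have : ∀ x, u x = 0 := fun x => le_antisymm (hu0 ▸ le_iSup u x) bot_le
    simp [this, h1s]
  by_cases hv0 : Mv = 0
  · have : ∀ x, v x = 0 := fun x => le_antisymm (hv0 ▸ le_iSup v x) bot_le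
    simp [this, hs0]
  set f : ℝ → ℝ := fun x => (u x / Mu).toReal with hf
  set g : ℝ → ℝ := fun x => (v x / Mv).toReal with hg
  have huM : ∀ x, u x / Mu ≤ 1 := fun x => by
    rw [ENNReal.div_le_iff hu0 hub, one_mul]; exact le_iSup u x
  have hvM : ∀ x, v x / Mv ≤ 1 := fun x => by
    rw [ENNReal.div_le_iff hv0 hvb, one_mul]; exact le_iSup v x
  have huf : ∀ x, u x / Mu ≠ ∞ := fun x => (lt_of_le_of_lt (huM x) ENNReal.one_lt_top).ne
  have hvf : ∀ x, v x / Mv ≠ ∞ := fun x => (lt_of_le_of_lt (hvM x) ENNReal.one_lt_top).ne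
  have hfe : ∀ x, u x = Mu * ENNReal.ofReal (f x) := fun x => by
    simp only [hf]; rw [ENNReal.ofReal_toReal (huf x), ENNReal.mul_div_cancel hu0 hub]
  have hge : ∀ x, v x = Mv * ENNReal.ofReal (g x) := fun x => by
    simp only [hg]; rw [ENNReal.ofReal_toReal (hvf x), ENNReal.mul_div_cancel hv0 hvb]
  set c := Mu ^ (1 - s) * Mv ^ s with hc
  have hc0 : c ≠ 0 := by
    rw [hc]
    apply mul_ne_zero
    · exact (ENNReal.rpow_pos (pos_iff_ne_zero.mpr hu0) hub).ne'
    · exact (ENNReal.rpow_pos (pos_iff_ne_zero.mpr hv0) hvb).ne'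
  have hct : c ≠ ∞ := by
    rw [hc]
    exact ENNReal.mul_ne_top (ENNReal.rpow_ne_top_of_nonneg h1s.le hub)
      (ENNReal.rpow_ne_top_of_nonneg hs0.le hvb)
  have hf0 : ∀ x, 0 ≤ f x := fun x => ENNReal.toReal_nonneg
  have hg0 : ∀ x, 0 ≤ g x := fun x => ENNReal.toReal_nonneg
  have key := pl1_normalized (f := f) (g := g) (w := fun x => c⁻¹ * w x) hs0 hs1
    (hu.div_const _).ennreal_toReal (hv.div_const _).ennreal_toReal (hw.const_mul _)
    hf0 hg0
    (fun x => (ENNReal.toReal_mono ENNReal.one_ne_top (huM x)).trans_eq ENNReal.toReal_one)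
    (fun x => (ENNReal.toReal_mono ENNReal.one_ne_top (hvM x)).trans_eq ENNReal.toReal_one)
    (by
      intro t ht
      by_cases ht0 : t < 0
      · exact ⟨0, lt_of_lt_of_le ht0 (hf0 0)⟩
      push Not at ht0
      have : Mu * ENNReal.ofReal t < ⨆ x, u x := by
        rw [← hMu]
        calc Mu * ENNReal.ofReal t < Mu * 1 := by
              apply ENNReal.mul_lt_mul_right hu0 hub
              rw [← ENNReal.ofReal_one]; exact (ENNReal.ofReal_lt_ofReal_iff_of_nonneg ht0).mpr ht
          _ = Mu := mul_one _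
      obtain ⟨x, hx⟩ := lt_iSup_iff.mp this
      refine ⟨x, ?_⟩
      rw [hfe x] at hx
      have h3 := lt_of_mul_lt_mul_left' hx
      exact (ENNReal.ofReal_lt_ofReal_iff_of_nonneg ht0).mp h3)
    (by
      intro t ht
      by_cases ht0 : t < 0
      · exact ⟨0, lt_of_lt_of_le ht0 (hg0 0)⟩
      push Not at ht0
      have : Mv * ENNReal.ofReal t < ⨆ x, v x := by
        rw [← hMv]
        calc Mv * ENNReal.ofReal t < Mv * 1 := by
              apply ENNReal.mul_lt_mul_right hv0 hvb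
              rw [← ENNReal.ofReal_one]; exact (ENNReal.ofReal_lt_ofReal_iff_of_nonneg ht0).mpr ht
          _ = Mv := mul_one _
      obtain ⟨x, hx⟩ := lt_iSup_iff.mp this
      refine ⟨x, ?_⟩
      rw [hge x] at hx
      have h3 := lt_of_mul_lt_mul_left' hx
      exact (ENNReal.ofReal_lt_ofReal_iff_of_nonneg ht0).mp h3)
    (by
      intro x y
      have h1 := h x y
      rw [hfe x, hge y, ENNReal.mul_rpow_of_nonneg _ _ h1s.le, ENNReal.mul_rpow_of_nonneg _ _ hs0.le,
        mul_mul_mul_comm, ← hc, ENNReal.ofReal_rpow_of_nonneg (hf0 x) h1s.le,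
        ENNReal.ofReal_rpow_of_nonneg (hg0 y) hs0.le, ← ENNReal.ofReal_mul (by positivity)] at h1
      calc ENNReal.ofReal (f x ^ (1 - s) * g y ^ s)
          = c⁻¹ * (c * ENNReal.ofReal (f x ^ (1 - s) * g y ^ s)) := by
            rw [← mul_assoc, ENNReal.inv_mul_cancel hc0 hct, one_mul]
        _ ≤ c⁻¹ * w ((1 - s) * x + s * y) := by gcongr)
  have key2 := (amgm_ennreal hs0 hs1 _ _).trans key
  have eu : ∫⁻ x, u x = Mu * ∫⁻ x, ENNReal.ofReal (f x) := by
    rw [← lintegral_const_mul' _ _ hub]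
    exact lintegral_congr hfe
  have ev : ∫⁻ x, v x = Mv * ∫⁻ x, ENNReal.ofReal (g x) := by
    rw [← lintegral_const_mul' _ _ hvb]
    exact lintegral_congr hge
  rw [eu, ev, ENNReal.mul_rpow_of_nonneg _ _ h1s.le, ENNReal.mul_rpow_of_nonneg _ _ hs0.le,
    mul_mul_mul_comm, ← hc]
  calc c * _ ≤ c * ∫⁻ x, c⁻¹ * w x := by gcongr
    _ = ∫⁻ x, w x := by
      rw [lintegral_const_mul _ hw, ← mul_assoc, ENNReal.mul_inv_cancel hc0 hct, one_mul]

theorem pl1 {s : ℝ} (hs0 : 0 < s) (hs1 : s < 1) {u v w : ℝ → ℝ≥0∞}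
    (hu : Measurable u) (hv : Measurable v) (hw : Measurable w)
    (h : ∀ x y, u x ^ (1 - s) * v y ^ s ≤ w ((1 - s) * x + s * y)) :
    (∫⁻ x, u x) ^ (1 - s) * (∫⁻ x, v x) ^ s ≤ ∫⁻ x, w x := by
  have h1s : 0 < 1 - s := by linarith
  have trunc : ∀ {q : ℝ → ℝ≥0∞}, Measurable q →
      ∫⁻ x, q x = ⨆ k : ℕ, ∫⁻ x, min (q x) k := by
    intro q hq
    rw [← lintegral_iSup (fun k => hq.min measurable_const)]
    · apply lintegral_congr
      intro x
      apply le_antisymm
      · by_cases hx : q x = ∞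
        · rw [hx]
          simp only [le_top, inf_of_le_right]
          exact ENNReal.iSup_natCast.ge
        · obtain ⟨k, hk⟩ := ENNReal.exists_nat_gt hx
          calc q x = min (q x) k := (min_eq_left hk.le).symm
            _ ≤ _ := le_iSup (fun k : ℕ => min (q x) (k : ℝ≥0∞)) k
      · exact iSup_le fun k => min_le_left _ _
    · intro i j hij x
      exact min_le_min_left _ (by exact_mod_cast hij)
  have hk : ∀ i j : ℕ, (∫⁻ x, min (u x) i) ^ (1 - s) * (∫⁻ x, min (v x) j) ^ s ≤ ∫⁻ x, w x := by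
    intro i j
    apply pl1_bdd hs0 hs1 (hu.min measurable_const) (hv.min measurable_const) hw
    · exact (lt_of_le_of_lt (iSup_le fun x => min_le_right _ _) (ENNReal.natCast_lt_top i)).ne
    · exact (lt_of_le_of_lt (iSup_le fun x => min_le_right _ _) (ENNReal.natCast_lt_top j)).ne
    · intro x y
      refine le_trans ?_ (h x y)
      gcongr
      · exact min_le_left _ _
      · exact min_le_left _ _
  have e1 : (∫⁻ x, u x) ^ (1 - s) = ⨆ i : ℕ, (∫⁻ x, min (u x) i) ^ (1 - s) := by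
    rw [trunc hu]
    exact (ENNReal.orderIsoRpow (1 - s) h1s).map_iSup _
  have e2 : (∫⁻ x, v x) ^ s = ⨆ i : ℕ, (∫⁻ x, min (v x) i) ^ s := by
    rw [trunc hv]
    exact (ENNReal.orderIsoRpow s hs0).map_iSup _
  rw [e1, e2, ENNReal.iSup_mul]
  apply iSup_le
  intro i
  rw [ENNReal.mul_iSup]
  exact iSup_le fun j => hk i j

theorem measurable_insertNth {n : ℕ} (i : Fin (n + 1)) :
    Measurable fun p : ℝ × (Fin n → ℝ) => (i.insertNth p.1 p.2 : Fin (n + 1) → ℝ) :=
  (MeasurableEquiv.piFinSuccAbove (fun _ : Fin (n + 1) => ℝ) i).symm.measurable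

theorem lintegral_insertNth {n : ℕ} (i : Fin (n + 1)) {F : (Fin (n + 1) → ℝ) → ℝ≥0∞}
    (hF : Measurable F) :
    ∫⁻ x, F x = ∫⁻ a : ℝ, ∫⁻ x : Fin n → ℝ, F (i.insertNth a x) := by
  have hmp := (volume_preserving_piFinSuccAbove (fun _ : Fin (n + 1) => ℝ) i).symm
  rw [← hmp.lintegral_comp hF, Measure.volume_eq_prod, lintegral_prod]
  · rfl
  · exact (hF.comp (MeasurableEquiv.measurable _)).aemeasurable

theorem prekopa_leindler {n : ℕ} {s : ℝ} (hs0 : 0 < s) (hs1 : s < 1)
    {u v w : (Fin n → ℝ) → ℝ≥0∞} (hu : Measurable u) (hv : Measurable v) (hw : Measurable w)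
    (h : ∀ x y, u x ^ (1 - s) * v y ^ s ≤ w ((1 - s) • x + s • y)) :
    (∫⁻ x, u x) ^ (1 - s) * (∫⁻ x, v x) ^ s ≤ ∫⁻ x, w x := by
  induction n with
  | zero =>
    have e : ∀ F : (Fin 0 → ℝ) → ℝ≥0∞, ∫⁻ x, F x = F 0 := by
      intro F
      rw [volume_pi, Measure.pi_of_empty (fun _ : Fin 0 => volume) 0, lintegral_dirac]
    rw [e, e, e]
    have := h 0 0
    simpa using this
  | succ n ih =>
    have mU : ∀ {q : (Fin (n + 1) → ℝ) → ℝ≥0∞}, Measurable q →
        Measurable fun a : ℝ => ∫⁻ x : Fin n → ℝ, q ((0 : Fin (n + 1)).insertNth a x) := by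
      intro q hq
      exact (hq.comp (measurable_insertNth 0)).lintegral_prod_right'
    rw [lintegral_insertNth 0 hu, lintegral_insertNth 0 hv, lintegral_insertNth 0 hw]
    apply pl1 hs0 hs1 (mU hu) (mU hv) (mU hw)
    intro a b
    have mc' : ∀ a : ℝ, Measurable fun x : Fin n → ℝ =>
        ((0 : Fin (n + 1)).insertNth a x : Fin (n + 1) → ℝ) :=
      fun a => (measurable_insertNth 0).comp (measurable_const.prodMk measurable_id)
    apply ih (hu.comp (mc' a)) (hv.comp (mc' b)) (hw.comp (mc' _))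
    intro x y
    have := h ((0 : Fin (n + 1)).insertNth a x) ((0 : Fin (n + 1)).insertNth b y)
    have e : (1 - s) • ((0 : Fin (n + 1)).insertNth a x : Fin (n + 1) → ℝ)
        + s • ((0 : Fin (n + 1)).insertNth b y : Fin (n + 1) → ℝ)
        = (0 : Fin (n + 1)).insertNth ((1 - s) * a + s * b) ((1 - s) • x + s • y) := by
      funext i
      refine Fin.cases ?_ (fun j => ?_) i <;> simp
    rw [e] at this
    exact this

end Vale.Agent.P150.F.PL
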